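import Vale.Agent.P037.MiniPattern

/-!
Block-diagonal patterns for problem P037.
-/

namespace Vale.Agent.P037

/-- The block-diagonal pattern of size `5 + m` with `H5` in the upper left corner, `P` in the
lower right corner and zeros elsewhere. -/
def dsum {m : ℕ} (P : Matrix (Fin m) (Fin m) Bool) : Matrix (Fin (5 + m)) (Fin (5 + m)) Bool :=
  Matrix.reindex finSumFinEquiv finSumFinEquiv
    (Matrix.fromBlocks H5 (fun _ _ => false) (fun _ _ => false) P)

end Vale.Agent.P037
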