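import Vale.Agent.P037.H995.Main

namespace Vale.Agent.P037.Blk

open Finset

section

variable {n n1 m w : ℕ}

/-- the transposed matrix -/
def tr (B : Matrix (Fin n) (Fin n) Bool) : Matrix (Fin n) (Fin n) Bool := fun x y => B y x

/-- the point number `x` of block `a` -/
def spt (hn : n1 + m * w ≤ n) (a : Fin m) (x : Fin w) : Fin n :=
  ⟨n1 + a * w + x, by
    have h1 : ((a : ℕ) + 1) * w ≤ m * w := Nat.mul_le_mul_right _ a.2
    have h2 := x.2
    rw [Nat.succ_mul] at h1
    omega⟩

/-- inclusion of the top block -/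
def top (hn : n1 + m * w ≤ n) (i : Fin n1) : Fin n := ⟨i, by have := i.2; omega⟩

theorem blk_spt (hm : 0 < m) (hn : n1 + m * w ≤ n) (a : Fin m) (x : Fin w) :
    blk hm n1 w (spt hn a x : Fin n) = a := by
  apply Fin.ext
  have hw : 0 < w := x.pos
  have h1 : n1 + (a : ℕ) * w + x - n1 = x + w * a := by
    rw [mul_comm w]; omega
  simp only [blk, spt]
  rw [h1, Nat.add_mul_div_left _ _ hw, Nat.div_eq_of_lt x.2]
  have := a.2
  omega

theorem spt_mod (hn : n1 + m * w ≤ n) (a : Fin m) (x : Fin w) :
    ((spt hn a x : Fin n) - n1 : ℕ) % w = x := by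
  have h1 : ((spt hn a x : Fin n) : ℕ) - n1 = x + w * a := by
    simp only [spt]
    rw [mul_comm w]; omega
  rw [h1, Nat.add_mul_mod_self_left, Nat.mod_eq_of_lt x.2]

/-- the `true` entries of a top row in the right part -/
def bits (hn : n1 + m * w ≤ n) (B : Matrix (Fin n) (Fin n) Bool) (i : Fin n1) : Finset (Fin n) :=
  univ.filter fun j => n1 ≤ (j : ℕ) ∧ B (top hn i) j = true

/-- a row is bad if it has too many `true` entries in the right part -/
def bad (hn : n1 + m * w ≤ n) (B : Matrix (Fin n) (Fin n) Bool) (i : Fin n1) : Prop :=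
  w < 10 * (bits hn B i).card

instance (hn : n1 + m * w ≤ n) (B : Matrix (Fin n) (Fin n) Bool) : DecidablePred (bad hn B) :=
  fun _ => Nat.decLt _ _

/-- all `true` entries of top rows in the right part -/
def allBits (n1 : ℕ) (B : Matrix (Fin n) (Fin n) Bool) : Finset (Fin n × Fin n) :=
  univ.filter fun p => (p.1 : ℕ) < n1 ∧ n1 ≤ (p.2 : ℕ) ∧ B p.1 p.2 = true

theorem bad_count (hn : n1 + m * w ≤ n) (B : Matrix (Fin n) (Fin n) Bool) :
    w * (univ.filter fun i => bad hn B i).card ≤ 10 * (allBits n1 B).card := by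
  have h1 : ((univ.filter fun i => bad hn B i).sigma fun i => bits hn B i).card ≤
      (allBits n1 B).card := by
    apply Finset.card_le_card_of_injOn (fun x => (top hn x.1, x.2))
    · intro x hx
      have hx' := (Finset.mem_sigma.1 (Finset.mem_coe.1 hx)).2
      have hx2 := (Finset.mem_filter.1 hx').2
      exact Finset.mem_coe.2 (Finset.mem_filter.2 ⟨Finset.mem_univ _, x.1.2, hx2.1, hx2.2⟩)
    · intro x _ y _ hxy
      have h1 := congrArg Prod.fst hxy
      have h2 : x.2 = y.2 := congrArg Prod.snd hxy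
      have h3 : x.1 = y.1 := Fin.ext (by
        have := congrArg Fin.val h1
        exact this)
      exact Sigma.ext h3 (heq_of_eq h2)
  rw [Finset.card_sigma] at h1
  calc w * (univ.filter fun i => bad hn B i).card
      = ∑ i ∈ univ.filter fun i => bad hn B i, w := by
        rw [Finset.sum_const, smul_eq_mul, mul_comm]
    _ ≤ ∑ i ∈ univ.filter fun i => bad hn B i, 10 * (bits hn B i).card := by
        apply Finset.sum_le_sum
        intro i hi
        exact (Finset.mem_filter.1 hi).2.le
    _ = 10 * ∑ i ∈ univ.filter fun i => bad hn B i, (bits hn B i).card := by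
        rw [Finset.mul_sum]
    _ ≤ _ := Nat.mul_le_mul_left _ h1

/-- the offsets whose whole transversal avoids the `true` entries of five rows -/
def good (hn : n1 + m * w ≤ n) (B : Matrix (Fin n) (Fin n) Bool) (r0 : Fin 5 → Fin n1) :
    Finset (Fin w) :=
  univ.filter fun y => ∀ i : Fin 5, ∀ b : Fin m, B (top hn (r0 i)) (spt hn b y) = false

theorem good_count (hw : 0 < w) (hn : n1 + m * w ≤ n) (B : Matrix (Fin n) (Fin n) Bool)
    (r0 : Fin 5 → Fin n1) (hg : ∀ i, ¬ bad hn B (r0 i)) :
    w ≤ 2 * (good hn B r0).card := by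
  let φ : Fin n → Fin w := fun j => ⟨((j : ℕ) - n1) % w, Nat.mod_lt _ hw⟩
  have h1 : (univ : Finset (Fin w)) ⊆
      good hn B r0 ∪ univ.biUnion (fun i : Fin 5 => (bits hn B (r0 i)).image φ) := by
    intro y _
    by_cases hy : y ∈ good hn B r0
    · exact Finset.mem_union_left _ hy
    · apply Finset.mem_union_right
      unfold good at hy
      rw [Finset.mem_filter, not_and] at hy
      have hy2 := hy (Finset.mem_univ _)
      push Not at hy2
      obtain ⟨i, b, hib⟩ := hy2
      refine Finset.mem_biUnion.2 ⟨i, Finset.mem_univ _, Finset.mem_image.2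
        ⟨spt hn b y, ?_, ?_⟩⟩
      · refine Finset.mem_filter.2 ⟨Finset.mem_univ _, ?_, ?_⟩
        · simp only [spt]; omega
        · exact Bool.eq_true_of_not_eq_false hib
      · exact Fin.ext (spt_mod hn b y)
  have h2 := Finset.card_le_card h1
  have h3 : (univ.biUnion (fun i : Fin 5 => (bits hn B (r0 i)).image φ)).card ≤
      ∑ i : Fin 5, (bits hn B (r0 i)).card :=
    Finset.card_biUnion_le.trans (Finset.sum_le_sum fun i _ => Finset.card_image_le)
  have h4 : 10 * ∑ i : Fin 5, (bits hn B (r0 i)).card ≤ 5 * w := by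
    rw [Finset.mul_sum]
    calc ∑ i : Fin 5, 10 * (bits hn B (r0 i)).card ≤ ∑ _i : Fin 5, w :=
          Finset.sum_le_sum fun i _ => not_lt.1 (hg i)
      _ = 5 * w := by rw [Finset.sum_const, Finset.card_univ, Fintype.card_fin, smul_eq_mul]
  have h5 := Finset.card_union_le (good hn B r0)
    (univ.biUnion (fun i : Fin 5 => (bits hn B (r0 i)).image φ))
  rw [Finset.card_univ, Fintype.card_fin] at h2
  omega

/-- the map behind `glue` -/
def gl (hn : n1 + m * w ≤ n) (r0 : Fin 5 ↪o Fin n1) (x : Fin w) (i : Fin (5 + m)) : Fin n :=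
  Fin.addCases (motive := fun _ => Fin n) (fun i => top hn (r0 i)) (fun a => spt hn a x) i

theorem gl_left (hn : n1 + m * w ≤ n) (r0 : Fin 5 ↪o Fin n1) (x : Fin w) (i : Fin 5) :
    gl hn r0 x (Fin.castAdd m i) = top hn (r0 i) := by
  unfold gl
  rw [Fin.addCases_left]

theorem gl_right (hn : n1 + m * w ≤ n) (r0 : Fin 5 ↪o Fin n1) (x : Fin w) (a : Fin m) :
    gl hn r0 x (Fin.natAdd 5 a) = spt hn a x := by
  unfold gl
  rw [Fin.addCases_right]

/-- five rows of the top block and one point of each block -/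
def glue (hn : n1 + m * w ≤ n) (r0 : Fin 5 ↪o Fin n1) (x : Fin w) : Fin (5 + m) ↪o Fin n :=
  OrderEmbedding.ofStrictMono (gl hn r0 x) (by
    intro i j hij
    induction i using Fin.addCases with
    | left i =>
      induction j using Fin.addCases with
      | left j =>
        rw [gl_left, gl_left]
        have h1 : r0 i < r0 j := r0.strictMono (by
          rw [Fin.lt_def] at hij ⊢; exact hij)
        exact h1
      | right j =>
        rw [gl_left, gl_right]
        rw [Fin.lt_def]
        simp only [top, spt]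
        have := (r0 i).2
        omega
    | right i =>
      induction j using Fin.addCases with
      | left j =>
        exfalso
        rw [Fin.lt_def, Fin.val_natAdd, Fin.val_castAdd] at hij
        have := j.2
        omega
      | right j =>
        rw [gl_right, gl_right]
        rw [Fin.lt_def, Fin.val_natAdd, Fin.val_natAdd] at hij
        rw [Fin.lt_def]
        simp only [spt]
        have h1 : ((i : ℕ) + 1) * w ≤ j * w := Nat.mul_le_mul_right _ (by omega)
        rw [Nat.succ_mul] at h1
        have := x.2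
        omega)

theorem glue_left (hn : n1 + m * w ≤ n) (r0 : Fin 5 ↪o Fin n1) (x : Fin w) (i : Fin 5) :
    glue hn r0 x (Fin.castAdd m i) = top hn (r0 i) :=
  gl_left hn r0 x i

theorem glue_right (hn : n1 + m * w ≤ n) (r0 : Fin 5 ↪o Fin n1) (x : Fin w) (a : Fin m) :
    glue hn r0 x (Fin.natAdd 5 a) = spt hn a x :=
  gl_right hn r0 x a

theorem not_copy {k : ℕ} {H : Matrix (Fin k) (Fin k) Bool} {B : Matrix (Fin n) (Fin n) Bool}
    (hB : numCopies H B = 0) (r c : Fin k ↪o Fin n) : ¬ IsCopy H B r c := by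
  intro h
  unfold numCopies at hB
  rw [Nat.card_eq_zero] at hB
  rcases hB with hB | hB
  · exact hB.false ⟨(r, c), h⟩
  · exact hB.not_finite inferInstance

/-- the changed entries -/
def chg (A B : Matrix (Fin n) (Fin n) Bool) : Finset (Fin n × Fin n) :=
  univ.filter fun p => A p.1 p.2 ≠ B p.1 p.2

theorem numDiff_eq (A B : Matrix (Fin n) (Fin n) Bool) : numDiff A B = (chg A B).card := by
  unfold numDiff chg
  rw [Nat.card_eq_fintype_card, Fintype.card_subtype]

/-- first half of the lower bound on the distance -/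
theorem far_left (hm : 0 < m) (hw : 0 < w) (hn : n1 + m * w ≤ n)
    (A : Matrix (Fin n1) (Fin n1) Bool) (P : Matrix (Fin m) (Fin m) Bool)
    (B : Matrix (Fin n) (Fin n) Bool) (hB : numCopies (dsum P) B = 0)
    (r0 c0 : Fin 5 ↪o Fin n1) (hr : ∀ i, ¬ bad hn B (r0 i))
    (hc : ∀ j, ¬ bad hn (tr B) (c0 j))
    (hcopy : ∀ i j, B (top hn (r0 i)) (top hn (c0 j)) = H5 i j) :
    w ^ 2 ≤ 4 * numDiff (host hm w A P) B := by
  let φ : Fin n → Fin w := fun j => ⟨((j : ℕ) - n1) % w, Nat.mod_lt _ hw⟩
  let GY := good hn B r0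
  let GX := good hn (tr B) c0
  have hY : w ≤ 2 * GY.card := good_count hw hn B r0 hr
  have hX : w ≤ 2 * GX.card := good_count hw hn (tr B) c0 hc
  have hsub : GX ×ˢ GY ⊆ (chg (host hm w A P) B).image (fun p => (φ p.1, φ p.2)) := by
    intro p hp
    have hp1 := (Finset.mem_filter.1 (Finset.mem_product.1 hp).1).2
    have hp2 := (Finset.mem_filter.1 (Finset.mem_product.1 hp).2).2
    by_contra hcon
    apply not_copy hB (glue hn r0 p.1) (glue hn c0 p.2)
    intro i j
    induction i using Fin.addCases with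
    | left i =>
      induction j using Fin.addCases with
      | left j => rw [glue_left, glue_left, dsum_11, hcopy]
      | right j => rw [glue_left, glue_right, dsum_12, hp2]
    | right i =>
      induction j using Fin.addCases with
      | left j => rw [glue_left, glue_right, dsum_21]; exact hp1 j i
      | right j =>
        rw [glue_right, glue_right, dsum_22]
        by_contra hne
        apply hcon
        refine Finset.mem_image.2 ⟨(spt hn i p.1, spt hn j p.2), ?_, ?_⟩
        · refine Finset.mem_filter.2 ⟨Finset.mem_univ _, ?_⟩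
          have h1 : n1 ≤ ((spt hn i p.1 : Fin n) : ℕ) := by simp only [spt]; omega
          have h2 : n1 ≤ ((spt hn j p.2 : Fin n) : ℕ) := by simp only [spt]; omega
          rw [host_bot hm w A P h1 h2, blk_spt, blk_spt]
          exact fun h => hne h.symm
        · exact Prod.ext (Fin.ext (spt_mod hn i p.1)) (Fin.ext (spt_mod hn j p.2))
  have h1 := (Finset.card_le_card hsub).trans Finset.card_image_le
  rw [Finset.card_product] at h1
  rw [numDiff_eq]
  calc w ^ 2 = w * w := sq w
    _ ≤ (2 * GX.card) * (2 * GY.card) := Nat.mul_le_mul hX hY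
    _ = 4 * (GX.card * GY.card) := by ring
    _ ≤ _ := Nat.mul_le_mul_left _ h1

/-- the changed entries of the top block -/
def chgTop (hn : n1 + m * w ≤ n) (A : Matrix (Fin n1) (Fin n1) Bool)
    (B : Matrix (Fin n) (Fin n) Bool) : Finset (Fin n1 × Fin n1) :=
  univ.filter fun p => A p.1 p.2 ≠ B (top hn p.1) (top hn p.2)

theorem three_parts (hm : 0 < m) (hn : n1 + m * w ≤ n)
    (A : Matrix (Fin n1) (Fin n1) Bool) (P : Matrix (Fin m) (Fin m) Bool)
    (B : Matrix (Fin n) (Fin n) Bool) :
    (chgTop hn A B).card + (allBits n1 B).card + (allBits n1 (tr B)).card ≤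
      numDiff (host hm w A P) B := by
  rw [numDiff_eq]
  let S1 := (chgTop hn A B).image (fun p => (top hn p.1, top hn p.2))
  let S2 := allBits n1 B
  let S3 := (allBits n1 (tr B)).image (fun p => (p.2, p.1))
  have c1 : S1.card = (chgTop hn A B).card := by
    apply Finset.card_image_of_injective
    intro x y hxy
    have h1 := congrArg (fun q => (q.1 : ℕ)) hxy
    have h2 := congrArg (fun q => (q.2 : ℕ)) hxy
    exact Prod.ext (Fin.ext h1) (Fin.ext h2)
  have c3 : S3.card = (allBits n1 (tr B)).card := by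
    apply Finset.card_image_of_injective
    intro x y hxy
    exact Prod.ext (congrArg Prod.snd hxy) (congrArg Prod.fst hxy)
  have m1 : ∀ p ∈ S1, (p.1 : ℕ) < n1 ∧ (p.2 : ℕ) < n1 ∧ p ∈ chg (host hm w A P) B := by
    intro p hp
    obtain ⟨q, hq, rfl⟩ := Finset.mem_image.1 hp
    refine ⟨q.1.2, q.2.2, Finset.mem_filter.2 ⟨Finset.mem_univ _, ?_⟩⟩
    have hq2 := (Finset.mem_filter.1 hq).2
    rw [host_top hm w A P (i := top hn q.1) (j := top hn q.2) q.1.2 q.2.2]
    exact hq2
  have m2 : ∀ p ∈ S2, (p.1 : ℕ) < n1 ∧ n1 ≤ (p.2 : ℕ) ∧ p ∈ chg (host hm w A P) B := by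
    intro p hp
    obtain ⟨h1, h2, h3⟩ := (Finset.mem_filter.1 hp).2
    refine ⟨h1, h2, Finset.mem_filter.2 ⟨Finset.mem_univ _, ?_⟩⟩
    rw [host_off hm w A P (by omega), h3]
    exact Bool.false_ne_true
  have m3 : ∀ p ∈ S3, n1 ≤ (p.1 : ℕ) ∧ (p.2 : ℕ) < n1 ∧ p ∈ chg (host hm w A P) B := by
    intro p hp
    obtain ⟨q, hq, rfl⟩ := Finset.mem_image.1 hp
    obtain ⟨h1, h2, h3⟩ := (Finset.mem_filter.1 hq).2
    refine ⟨h2, h1, Finset.mem_filter.2 ⟨Finset.mem_univ _, ?_⟩⟩
    have h4 : B q.2 q.1 = true := h3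
    change host hm w A P q.2 q.1 ≠ B q.2 q.1
    rw [host_off hm w A P (by omega), h4]
    exact Bool.false_ne_true
  have d12 : Disjoint S1 S2 := by
    rw [Finset.disjoint_left]
    intro p h1 h2
    have := m1 p h1
    have := m2 p h2
    omega
  have d123 : Disjoint (S1 ∪ S2) S3 := by
    rw [Finset.disjoint_left]
    intro p h1 h2
    have := m3 p h2
    rcases Finset.mem_union.1 h1 with h | h
    · have := m1 p h
      omega
    · have := m2 p h
      omega
  rw [← c1, ← c3, ← Finset.card_union_of_disjoint d12, ← Finset.card_union_of_disjoint d123]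
  apply Finset.card_le_card
  intro p hp
  rcases Finset.mem_union.1 hp with h | h
  · rcases Finset.mem_union.1 h with h | h
    · exact (m1 p h).2.2
    · exact (m2 p h).2.2
  · exact (m3 p h).2.2

/-- the top block of `B` with its bad rows and columns erased -/
def ers (hn : n1 + m * w ≤ n) (B : Matrix (Fin n) (Fin n) Bool) :
    Matrix (Fin n1) (Fin n1) Bool := fun i j =>
  if bad hn B i ∨ bad hn (tr B) j then false else B (top hn i) (top hn j)

theorem far_right (hn : n1 + m * w ≤ n)
    (A : Matrix (Fin n1) (Fin n1) Bool)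
    (B : Matrix (Fin n) (Fin n) Bool) :
    numDiff A (ers hn B) ≤ (chgTop hn A B).card + (univ.filter fun i => bad hn B i).card * n1 +
      n1 * (univ.filter fun j => bad hn (tr B) j).card := by
  rw [numDiff_eq]
  have hsub : chg A (ers hn B) ⊆ (chgTop hn A B ∪ (univ.filter fun i => bad hn B i) ×ˢ univ) ∪
      univ ×ˢ (univ.filter fun j => bad hn (tr B) j) := by
    intro p hp
    have hp1 := (Finset.mem_filter.1 hp).2
    by_cases h1 : bad hn B p.1
    · apply Finset.mem_union_left
      apply Finset.mem_union_right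
      exact Finset.mem_product.2 ⟨Finset.mem_filter.2 ⟨Finset.mem_univ _, h1⟩, Finset.mem_univ _⟩
    · by_cases h2 : bad hn (tr B) p.2
      · apply Finset.mem_union_right
        exact Finset.mem_product.2 ⟨Finset.mem_univ _,
          Finset.mem_filter.2 ⟨Finset.mem_univ _, h2⟩⟩
      · apply Finset.mem_union_left
        apply Finset.mem_union_left
        refine Finset.mem_filter.2 ⟨Finset.mem_univ _, ?_⟩
        unfold ers at hp1
        rw [if_neg (by tauto)] at hp1
        exact hp1
  refine (Finset.card_le_card hsub).trans ?_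
  refine (Finset.card_union_le _ _).trans ?_
  refine (Nat.add_le_add_right (Finset.card_union_le _ _) _).trans ?_
  rw [Finset.card_product, Finset.card_product, Finset.card_univ, Fintype.card_fin]

/-- lower bound on the distance of the host -/
theorem host_far (hm : 0 < m) (hw : 0 < w) (hn : n1 + m * w ≤ n)
    (A : Matrix (Fin n1) (Fin n1) Bool) (P : Matrix (Fin m) (Fin m) Bool)
    (B : Matrix (Fin n) (Fin n) Bool) (hB : numCopies (dsum P) B = 0) (E : ℕ)
    (hE : ∀ B1 : Matrix (Fin n1) (Fin n1) Bool, numCopies H5 B1 = 0 → E ≤ numDiff A B1) :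
    w ^ 2 ≤ 4 * numDiff (host hm w A P) B ∨
      w * E ≤ (w + 10 * n1) * numDiff (host hm w A P) B := by
  by_cases hfree : numCopies H5 (ers hn B) = 0
  · right
    have h1 := (hE _ hfree).trans (far_right hn A B)
    have h2 := bad_count hn B
    have h3 := bad_count hn (tr B)
    have h4 := three_parts hm hn A P B
    obtain ⟨d, hd⟩ : ∃ d, d = (chgTop hn A B).card := ⟨_, rfl⟩
    obtain ⟨b1, hb1⟩ : ∃ b, b = (univ.filter fun i => bad hn B i).card := ⟨_, rfl⟩
    obtain ⟨b2, hb2⟩ : ∃ b, b = (univ.filter fun j => bad hn (tr B) j).card :=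
      ⟨_, rfl⟩
    obtain ⟨a1, ha1⟩ : ∃ a, a = (allBits n1 B).card := ⟨_, rfl⟩
    obtain ⟨a2, ha2⟩ : ∃ a, a = (allBits n1 (tr B)).card := ⟨_, rfl⟩
    obtain ⟨D, hD⟩ : ∃ D, D = numDiff (host hm w A P) B := ⟨_, rfl⟩
    rw [← hd, ← hb1, ← hb2] at h1
    rw [← hb1, ← ha1] at h2
    rw [← hb2, ← ha2] at h3
    rw [← hd, ← ha1, ← ha2, ← hD] at h4
    rw [← hD]
    clear hD ha1 ha2 hb1 hb2 hd hE hfree hB
    calc w * E ≤ w * (d + b1 * n1 + n1 * b2) := Nat.mul_le_mul_left _ h1
      _ = w * d + n1 * (w * b1) + n1 * (w * b2) := by ring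
      _ ≤ w * d + n1 * (10 * a1) + n1 * (10 * a2) := by gcongr
      _ ≤ w * (d + a1 + a2) + 10 * n1 * (d + a1 + a2) := by nlinarith
      _ = (w + 10 * n1) * (d + a1 + a2) := by ring
      _ ≤ _ := Nat.mul_le_mul_left _ h4
  · left
    unfold numCopies at hfree
    obtain ⟨⟨rc, hrc⟩⟩ := (Nat.card_ne_zero.1 hfree).1
    have hr : ∀ i, ¬ bad hn B (rc.1 i) := by
      intro i hi
      obtain ⟨j, hj⟩ := Mini.pat_row i
      have h1 := hrc i j
      rw [Mini.H5_eq, hj] at h1
      unfold ers at h1
      rw [if_pos (Or.inl hi)] at h1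
      exact Bool.false_ne_true h1
    have hc : ∀ j, ¬ bad hn (tr B) (rc.2 j) := by
      intro j hj'
      obtain ⟨i, hi⟩ := Mini.pat_col j
      have h1 := hrc i j
      rw [Mini.H5_eq, hi] at h1
      unfold ers at h1
      rw [if_pos (Or.inr hj')] at h1
      exact Bool.false_ne_true h1
    refine far_left hm hw hn A P B hB rc.1 rc.2 hr hc ?_
    intro i j
    have h1 := hrc i j
    unfold ers at h1
    rw [if_neg (by
      have := hr i
      have := hc j
      tauto)] at h1
    exact h1

end

end Vale.Agent.P037.Blk
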