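import Vale.Agent.P037.Defs
import Vale.Agent.P037.MiniPattern
import Vale.Agent.P037.H995.Defs
import Vale.Agent.P037.Bdl.B1

namespace Vale.Agent.P037.Blk

open Finset

theorem dsum_11 {m : ℕ} (P : Matrix (Fin m) (Fin m) Bool) (i j : Fin 5) :
    dsum P (Fin.castAdd m i) (Fin.castAdd m j) = H5 i j := by
  simp only [dsum, Matrix.reindex_apply, Matrix.submatrix_apply,
    finSumFinEquiv_symm_apply_castAdd]
  rfl

theorem dsum_12 {m : ℕ} (P : Matrix (Fin m) (Fin m) Bool) (i : Fin 5) (j : Fin m) :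
    dsum P (Fin.castAdd m i) (Fin.natAdd 5 j) = false := by
  simp only [dsum, Matrix.reindex_apply, Matrix.submatrix_apply,
    finSumFinEquiv_symm_apply_castAdd, finSumFinEquiv_symm_apply_natAdd]
  rfl

theorem dsum_21 {m : ℕ} (P : Matrix (Fin m) (Fin m) Bool) (i : Fin m) (j : Fin 5) :
    dsum P (Fin.natAdd 5 i) (Fin.castAdd m j) = false := by
  simp only [dsum, Matrix.reindex_apply, Matrix.submatrix_apply,
    finSumFinEquiv_symm_apply_castAdd, finSumFinEquiv_symm_apply_natAdd]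
  rfl

theorem dsum_22 {m : ℕ} (P : Matrix (Fin m) (Fin m) Bool) (i j : Fin m) :
    dsum P (Fin.natAdd 5 i) (Fin.natAdd 5 j) = P i j := by
  simp only [dsum, Matrix.reindex_apply, Matrix.submatrix_apply,
    finSumFinEquiv_symm_apply_natAdd]
  rfl

theorem dsum_zero (P : Matrix (Fin 0) (Fin 0) Bool) : dsum P = H5 := by
  funext i j
  exact dsum_11 P i j

theorem dsum_injective {m : ℕ} : Function.Injective (dsum (m := m)) := by
  intro P Q h
  funext i j
  rw [← dsum_22 P i j, ← dsum_22 Q i j, h]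

/-- no matrix contains its own extension by `H5`, repetitions allowed -/
theorem no_self {m : ℕ} (P : Matrix (Fin m) (Fin m) Bool) (f g : Fin (5 + m) → Fin m)
    (h : ∀ i j, P (f i) (g j) = dsum P i j) : False := by
  let ρ : Fin m → (Fin m → Bool) := fun i j => P i j
  let γ : Fin m → Fin m := fun j => g (Fin.natAdd 5 j)
  let T : (Fin m → Bool) → (Fin m → Bool) := fun v j => v (γ j)
  have hT : ∀ i, T (ρ (f (Fin.natAdd 5 i))) = ρ i := by
    intro i
    funext j
    exact (h (Fin.natAdd 5 i) (Fin.natAdd 5 j)).trans (dsum_22 P i j)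
  let S : Finset (Fin m → Bool) := Finset.univ.image ρ
  have hmem : ∀ i, ρ i ∈ S := fun i => Finset.mem_image_of_mem ρ (Finset.mem_univ i)
  have hsub : S ⊆ S.image T := by
    intro v hv
    obtain ⟨i, _, rfl⟩ := Finset.mem_image.1 hv
    rw [← hT i]
    exact Finset.mem_image_of_mem T (hmem _)
  have heq : S = S.image T := Finset.eq_of_subset_of_card_le hsub Finset.card_image_le
  have hinj : Set.InjOn T (S : Set (Fin m → Bool)) := by
    apply Finset.card_image_iff.1
    rw [← heq]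
  have hz : T (ρ (f (Fin.castAdd m 0))) = fun _ => false := by
    funext j
    exact (h (Fin.castAdd m 0) (Fin.natAdd 5 j)).trans (dsum_12 P 0 j)
  have hz' : T (ρ (f (Fin.castAdd m 0))) ∈ S := by
    rw [heq]
    exact Finset.mem_image_of_mem T (hmem _)
  obtain ⟨i1, _, hi1⟩ := Finset.mem_image.1 hz'
  have h2 : ρ (f (Fin.natAdd 5 i1)) = ρ (f (Fin.castAdd m 0)) := by
    apply hinj (Finset.mem_coe.2 (hmem _)) (Finset.mem_coe.2 (hmem _))
    rw [hT i1, hi1]
  have h3 := congrFun h2 (g (Fin.castAdd m 0))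
  have h4 : ρ (f (Fin.natAdd 5 i1)) (g (Fin.castAdd m 0)) = false :=
    (h (Fin.natAdd 5 i1) (Fin.castAdd m 0)).trans (dsum_21 P i1 0)
  have h5 : ρ (f (Fin.castAdd m 0)) (g (Fin.castAdd m 0)) = true :=
    (h (Fin.castAdd m 0) (Fin.castAdd m 0)).trans ((dsum_11 P 0 0).trans rfl)
  rw [h4, h5] at h3
  exact Bool.false_ne_true h3

/-- the block of an index -/
def blk {m : ℕ} (hm : 0 < m) (n1 w i : ℕ) : Fin m := ⟨min ((i - n1) / w) (m - 1), by omega⟩

/-- the host matrix -/
def host {n n1 m : ℕ} (hm : 0 < m) (w : ℕ) (A : Matrix (Fin n1) (Fin n1) Bool)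
    (P : Matrix (Fin m) (Fin m) Bool) : Matrix (Fin n) (Fin n) Bool := fun i j =>
  if h : (i : ℕ) < n1 ∧ (j : ℕ) < n1 then A ⟨i, h.1⟩ ⟨j, h.2⟩
  else if n1 ≤ (i : ℕ) ∧ n1 ≤ (j : ℕ) then P (blk hm n1 w i) (blk hm n1 w j) else false

section

variable {n n1 m : ℕ} (hm : 0 < m) (w : ℕ) (A : Matrix (Fin n1) (Fin n1) Bool)
  (P : Matrix (Fin m) (Fin m) Bool)

theorem host_top {i j : Fin n} (hi : (i : ℕ) < n1) (hj : (j : ℕ) < n1) :
    host hm w A P i j = A ⟨i, hi⟩ ⟨j, hj⟩ := by
  unfold host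
  rw [dif_pos ⟨hi, hj⟩]

theorem host_bot {i j : Fin n} (hi : n1 ≤ (i : ℕ)) (hj : n1 ≤ (j : ℕ)) :
    host hm w A P i j = P (blk hm n1 w i) (blk hm n1 w j) := by
  unfold host
  rw [dif_neg (by omega), if_pos ⟨hi, hj⟩]

theorem host_off {i j : Fin n} (h : ¬ ((i : ℕ) < n1 ↔ (j : ℕ) < n1)) :
    host hm w A P i j = false := by
  unfold host
  rw [dif_neg (by tauto), if_neg (by omega)]

theorem copy_top {r c : Fin (5 + m) ↪o Fin n} (h : IsCopy (dsum P) (host hm w A P) r c) :
    (∀ i : Fin 5, (r (Fin.castAdd m i) : ℕ) < n1) ∧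
      (∀ j : Fin 5, (c (Fin.castAdd m j) : ℕ) < n1) := by
  have e : ∀ i j : Fin 5, H5 i j = true →
      ((r (Fin.castAdd m i) : ℕ) < n1 ↔ (c (Fin.castAdd m j) : ℕ) < n1) := by
    intro i j hij
    by_contra hne
    have h1 := h (Fin.castAdd m i) (Fin.castAdd m j)
    rw [dsum_11, hij, host_off hm w A P hne] at h1
    exact Bool.false_ne_true h1
  have key : ((r (Fin.castAdd m 0) : ℕ) < n1) := by
    by_contra h0
    have h0' : ¬ ((c (Fin.castAdd m 0) : ℕ) < n1) := by
      rw [← e 0 0 rfl]; exact h0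
    have hr : ∀ i, n1 ≤ (r i : ℕ) := by
      intro i
      have h1 : r (Fin.castAdd m 0) ≤ r i := r.monotone (by
        rw [Fin.le_def]; exact Nat.zero_le _)
      have h2 : (r (Fin.castAdd m 0) : ℕ) ≤ (r i : ℕ) := h1
      omega
    have hc : ∀ i, n1 ≤ (c i : ℕ) := by
      intro i
      have h1 : c (Fin.castAdd m 0) ≤ c i := c.monotone (by
        rw [Fin.le_def]; exact Nat.zero_le _)
      have h2 : (c (Fin.castAdd m 0) : ℕ) ≤ (c i : ℕ) := h1
      omega
    exact no_self P (fun i => blk hm n1 w (r i)) (fun j => blk hm n1 w (c j)) (fun i j => by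
      rw [← h i j, host_bot hm w A P (hr i) (hc j)])
  have c0 := (e 0 0 rfl).1 key
  have c1 := (e 0 1 rfl).1 key
  have c2 := (e 0 2 rfl).1 key
  have c4 := (e 0 4 rfl).1 key
  have r1 := (e 1 0 rfl).2 c0
  have c3 := (e 1 3 rfl).1 r1
  have r2 := (e 2 0 rfl).2 c0
  have r3 := (e 3 1 rfl).2 c1
  have r4 := (e 4 0 rfl).2 c0
  constructor
  · intro i
    fin_cases i
    · exact key
    · exact r1
    · exact r2
    · exact r3
    · exact r4
  · intro i
    fin_cases i
    · exact c0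
    · exact c1
    · exact c2
    · exact c3
    · exact c4

/-- restriction of a map to the first five indices -/
def restr {r : Fin (5 + m) ↪o Fin n} (h : ∀ i : Fin 5, (r (Fin.castAdd m i) : ℕ) < n1) :
    Fin 5 ↪o Fin n1 :=
  OrderEmbedding.ofStrictMono (fun i => (⟨r (Fin.castAdd m i), h i⟩ : Fin n1)) (by
    intro a b hab
    have h1 : r (Fin.castAdd m a) < r (Fin.castAdd m b) := r.strictMono (by
      rw [Fin.lt_def]; exact hab)
    exact h1)

theorem restr_apply {r : Fin (5 + m) ↪o Fin n}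
    (h : ∀ i : Fin 5, (r (Fin.castAdd m i) : ℕ) < n1) (i : Fin 5) :
    ((restr h i : Fin n1) : ℕ) = (r (Fin.castAdd m i) : ℕ) := rfl

theorem emb_ext {r r' : Fin (5 + m) ↪o Fin n}
    (h : ∀ i : Fin 5, (r (Fin.castAdd m i) : ℕ) < n1)
    (h' : ∀ i : Fin 5, (r' (Fin.castAdd m i) : ℕ) < n1) (h1 : restr h = restr h')
    (h2 : (fun i : Fin m => r (Fin.natAdd 5 i)) = fun i : Fin m => r' (Fin.natAdd 5 i)) :
    r = r' := by
  apply RelEmbedding.ext
  intro i
  induction i using Fin.addCases with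
  | left i =>
    apply Fin.ext
    rw [← restr_apply h, ← restr_apply h', h1]
  | right i => exact congrFun h2 i

theorem numCopies_host_le :
    numCopies (dsum P) (host (n := n) hm w A P) ≤ numCopies H5 A * (n ^ m * n ^ m) := by
  let F : {rc : (Fin (5 + m) ↪o Fin n) × (Fin (5 + m) ↪o Fin n) //
        IsCopy (dsum P) (host (n := n) hm w A P) rc.1 rc.2} →
      {rc : (Fin 5 ↪o Fin n1) × (Fin 5 ↪o Fin n1) // IsCopy H5 A rc.1 rc.2} ×
        ((Fin m → Fin n) × (Fin m → Fin n)) := fun x =>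
    (⟨(restr (copy_top hm w A P x.2).1, restr (copy_top hm w A P x.2).2), by
        intro i j
        have h1 := x.2 (Fin.castAdd m i) (Fin.castAdd m j)
        rw [dsum_11, host_top hm w A P ((copy_top hm w A P x.2).1 i)
          ((copy_top hm w A P x.2).2 j)] at h1
        exact h1⟩,
      (fun i => x.1.1 (Fin.natAdd 5 i), fun i => x.1.2 (Fin.natAdd 5 i)))
  have hF : Function.Injective F := by
    intro x y hxy
    have e0 : (F x).1.1 = (F y).1.1 := by rw [hxy]
    have e1 : (F x).1.1.1 = (F y).1.1.1 := congrArg Prod.fst e0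
    have e2 : (F x).1.1.2 = (F y).1.1.2 := congrArg Prod.snd e0
    have e3 : (F x).2.1 = (F y).2.1 := by rw [hxy]
    have e4 : (F x).2.2 = (F y).2.2 := by rw [hxy]
    apply Subtype.ext
    apply Prod.ext
    · exact emb_ext _ _ e1 e3
    · exact emb_ext _ _ e2 e4
  have h1 := Nat.card_le_card_of_injective F hF
  unfold numCopies
  refine h1.trans (le_of_eq ?_)
  rw [Nat.card_prod, Nat.card_prod, Nat.card_fun, Nat.card_eq_fintype_card (α := Fin n),
    Nat.card_eq_fintype_card (α := Fin m), Fintype.card_fin, Fintype.card_fin]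

end

end Vale.Agent.P037.Blk
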