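import Vale.Agent.P037.H995.Far

namespace Vale.Agent.P037.Blk

open Filter Topology

theorem free_false {m n : ℕ} (P : Matrix (Fin m) (Fin m) Bool) :
    numCopies (dsum P) (fun _ _ : Fin n => false) = 0 := by
  have : IsEmpty {rc : (Fin (5 + m) ↪o Fin n) × (Fin (5 + m) ↪o Fin n) //
        IsCopy (dsum P) (fun _ _ : Fin n => false) rc.1 rc.2} := by
    refine ⟨fun rc => ?_⟩
    have h1 := rc.2 (Fin.castAdd m 0) (Fin.castAdd m 0)
    rw [dsum_11] at h1
    exact Bool.false_ne_true h1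
  unfold numCopies
  exact Nat.card_of_isEmpty

theorem quant {m : ℕ} (P : Matrix (Fin m) (Fin m) Bool) {ε : ℝ} (h0 : 0 < ε)
    (h1 : ε ≤ 1 / (100000 * (1 + 188 * (m : ℝ)) ^ 2)) {n : ℕ} (hn : (2 : ℝ) ^ (1 / √ε) ≤ n) :
    ∃ A : Matrix (Fin n) (Fin n) Bool, ε ≤ distFree (dsum P) A ∧
      (numCopies (dsum P) A : ℝ) ≤
        2 ^ (-(1 / (136 * √((1 + 188 * (m : ℝ)) * ε)))) * (n : ℝ) ^ (2 * (5 + m)) := by
  rcases Nat.eq_zero_or_pos m with rfl | hm
  · obtain ⟨A, hA1, hA2⟩ := Mini.quant h0 (by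
      refine h1.trans ?_
      norm_num) hn
    refine ⟨A, ?_, ?_⟩
    · have e : distFree (dsum P) A = distFree (k := 5) H5 A :=
        congrArg (fun H => distFree H A) (dsum_zero P)
      rw [e]
      exact hA1
    · have e : numCopies (dsum P) A = numCopies (k := 5) H5 A :=
        congrArg (fun H => numCopies H A) (dsum_zero P)
      rw [e]
      refine hA2.trans ?_
      have e2 : (1 + 188 * ((0 : ℕ) : ℝ)) * ε = ε := by
        push_cast; ring
      rw [e2]
  · obtain ⟨s, hs⟩ : ∃ s, s = √ε := ⟨_, rfl⟩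
    have hs0 : 0 < s := by rw [hs]; exact Real.sqrt_pos.2 h0
    have hss : s ^ 2 = ε := by rw [hs]; exact Real.sq_sqrt h0.le
    have hm1 : (1 : ℝ) ≤ (m : ℝ) := by exact_mod_cast hm
    obtain ⟨M, hM⟩ : ∃ M : ℝ, M = 1 + 20 * (m : ℝ) := ⟨_, rfl⟩
    have hM21 : 21 ≤ M := by rw [hM]; linarith only [hm1]
    obtain ⟨K, hK⟩ : ∃ K : ℝ, K = 1 + 188 * (m : ℝ) := ⟨_, rfl⟩
    have hKM : 9 * M ≤ K := by rw [hM, hK]; linarith only [hm1]
    rw [← hK] at h1 ⊢
    have hεM : ε * (100000 * (9 * M) ^ 2) ≤ 1 := by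
      have hK0 : 0 < K := by linarith only [hKM, hM21]
      rw [le_div_iff₀ (by positivity)] at h1
      refine le_trans ?_ h1
      apply mul_le_mul_of_nonneg_left _ h0.le
      apply mul_le_mul_of_nonneg_left _ (by norm_num)
      exact pow_le_pow_left₀ (by linarith only [hM21]) hKM 2
    have hsM : s * (2000 * M) ≤ 1 := by
      apply le_of_sq_le_sq _ (by norm_num)
      rw [mul_pow, hss, one_pow]
      refine le_trans ?_ hεM
      apply mul_le_mul_of_nonneg_left _ h0.le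
      nlinarith only [hM21]
    have hsM' : 2000 * M ≤ 1 / s := by
      rw [le_div_iff₀ hs0]
      linarith only [hsM]
    obtain ⟨ε1, hε1⟩ : ∃ e : ℝ, e = 9 * M * ε := ⟨_, rfl⟩
    have hε1pos : 0 < ε1 := by rw [hε1]; positivity
    have hε1le : ε1 ≤ 1 / 100000 := by
      rw [hε1]
      have h2 : 9 * M * ε * 100000 ≤ ε * (100000 * (9 * M) ^ 2) := by
        have : 0 ≤ ε * M * (9 * M - 1) :=
          mul_nonneg (mul_nonneg h0.le (by linarith only [hM21])) (by linarith only [hM21])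
        nlinarith only [this]
      linarith only [h2, hεM]
    obtain ⟨s1, hs1⟩ : ∃ t, t = √ε1 := ⟨_, rfl⟩
    have hs1pos : 0 < s1 := by rw [hs1]; exact Real.sqrt_pos.2 hε1pos
    have hss1 : s1 ^ 2 = ε1 := by rw [hs1]; exact Real.sq_sqrt hε1pos.le
    have h13 : 13 * s ≤ s1 := by
      apply le_of_sq_le_sq _ hs1pos.le
      rw [hss1, hε1, mul_pow, hss]
      nlinarith only [h0, hM21]
    have hexp : 1 / s1 + 2 ≤ 1 / s := by
      have h2 : 1 / s1 ≤ 1 / (13 * s) := one_div_le_one_div_of_le (by positivity) h13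
      have h3 : 1 / (13 * s) = (1 / s) / 13 := by field_simp
      rw [h3] at h2
      linarith only [h2, hsM', hM21]
    have hn4 : (4 : ℝ) * 2 ^ (1 / s1) ≤ n := by
      refine le_trans ?_ hn
      have h4 : (4 : ℝ) = 2 ^ (2 : ℝ) := by norm_num
      rw [h4, ← Real.rpow_add (by norm_num)]
      apply Real.rpow_le_rpow_of_exponent_le (by norm_num)
      rw [← hs]
      linarith only [hexp]
    have hone : (1 : ℝ) ≤ 2 ^ (1 / s1) := Real.one_le_rpow (by norm_num) (by positivity)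
    have hn4' : 4 ≤ n := by
      have : (4 : ℝ) ≤ n := by linarith only [hn4, hone]
      exact_mod_cast this
    obtain ⟨n1, hn1⟩ : ∃ n1, n1 = n / 2 := ⟨_, rfl⟩
    have hn13 : n ≤ 3 * n1 := by omega
    have hn14 : (n : ℝ) ≤ 4 * (n1 : ℝ) := by
      have : n ≤ 4 * n1 := by omega
      exact_mod_cast this
    have ha : (2 : ℝ) ^ (1 / √ε1) ≤ n1 := by
      rw [← hs1]
      linarith only [hn4, hn14]
    have hmn : m ≤ n1 := by
      have h2 : (2 : ℝ) ^ (m : ℝ) * 4 ≤ n := by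
        refine le_trans ?_ hn
        have h4 : (4 : ℝ) = 2 ^ (2 : ℝ) := by norm_num
        rw [h4, ← Real.rpow_add (by norm_num)]
        apply Real.rpow_le_rpow_of_exponent_le (by norm_num)
        rw [← hs]
        rw [hM] at hsM'
        linarith only [hsM', hm1]
      rw [Real.rpow_natCast] at h2
      have h3 : ((2 ^ m : ℕ) : ℝ) ≤ (n1 : ℝ) := by
        push_cast
        linarith only [h2, hn14]
      have h4 : 2 ^ m ≤ n1 := by exact_mod_cast h3
      exact (Nat.lt_two_pow_self).le.trans h4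
    obtain ⟨w, hw⟩ : ∃ w, w = n1 / m := ⟨_, rfl⟩
    have hw1 : 0 < w := by rw [hw]; exact Nat.div_pos hmn hm
    have hmw : m * w ≤ n1 := by rw [hw]; exact Nat.mul_div_le n1 m
    have hmw2 : n1 ≤ 2 * m * w := by
      have h2 : n1 < m * (w + 1) := by rw [hw]; exact Nat.lt_mul_div_succ n1 hm
      have h3 : m * 1 ≤ m * w := Nat.mul_le_mul_left _ hw1
      rw [mul_add] at h2
      rw [mul_assoc]
      omega
    have hfit : n1 + m * w ≤ n := by omega
    obtain ⟨A, hA1, hA2⟩ := Mini.quant hε1pos hε1le ha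
    refine ⟨host hm w A P, ?_, ?_⟩
    · unfold distFree at hA1 ⊢
      set E := sInf {d : ℕ | ∃ B : Matrix (Fin n1) (Fin n1) Bool,
        numCopies H5 B = 0 ∧ numDiff A B = d} with hE
      have hn1pos : (0 : ℝ) < (n1 : ℝ) := by
        have : 0 < n1 := by omega
        exact_mod_cast this
      have hnpos : (0 : ℝ) < (n : ℝ) := by
        have : 0 < n := by omega
        exact_mod_cast this
      rw [le_div_iff₀ (by positivity)] at hA1 ⊢
      have hmem : sInf {d : ℕ | ∃ B : Matrix (Fin n) (Fin n) Bool,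
          numCopies (dsum P) B = 0 ∧ numDiff (host hm w A P) B = d} ∈
          {d : ℕ | ∃ B : Matrix (Fin n) (Fin n) Bool,
          numCopies (dsum P) B = 0 ∧ numDiff (host hm w A P) B = d} :=
        Nat.sInf_mem ⟨_, (fun _ _ => false), free_false P, rfl⟩
      obtain ⟨B, hB1, hB2⟩ := hmem
      rw [← hB2]
      have hfar := host_far hm hw1 hfit A P B hB1 E
        (fun B1 hB1 => Nat.sInf_le ⟨B1, hB1, rfl⟩)
      obtain ⟨D, hD⟩ : ∃ D, D = numDiff (host hm w A P) B := ⟨_, rfl⟩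
      rw [← hD] at hfar ⊢
      have hD0 : (0 : ℝ) ≤ (D : ℝ) := Nat.cast_nonneg _
      have hw1' : (0 : ℝ) < (w : ℝ) := by exact_mod_cast hw1
      have hn13' : (n : ℝ) ≤ 3 * (n1 : ℝ) := by exact_mod_cast hn13
      have hnn : (n : ℝ) ^ 2 ≤ 9 * (n1 : ℝ) ^ 2 := by
        calc (n : ℝ) ^ 2 ≤ (3 * (n1 : ℝ)) ^ 2 := pow_le_pow_left₀ hnpos.le hn13' 2
          _ = 9 * (n1 : ℝ) ^ 2 := by ring
      have hmw2' : (n1 : ℝ) ≤ 2 * m * w := by exact_mod_cast hmw2
      rcases hfar with h2 | h2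
      · have h3 : (w : ℝ) ^ 2 ≤ 4 * (D : ℝ) := by exact_mod_cast h2
        have h4 : (n1 : ℝ) ^ 2 ≤ 16 * (m : ℝ) ^ 2 * D := by
          calc (n1 : ℝ) ^ 2 ≤ (2 * m * w) ^ 2 := pow_le_pow_left₀ hn1pos.le hmw2' 2
            _ = 4 * (m : ℝ) ^ 2 * (w : ℝ) ^ 2 := by ring
            _ ≤ 4 * (m : ℝ) ^ 2 * (4 * (D : ℝ)) := by
              apply mul_le_mul_of_nonneg_left h3 (by positivity)
            _ = _ := by ring
        have h5 : ε * (144 * (m : ℝ) ^ 2) ≤ 1 := by
          refine le_trans ?_ hεM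
          apply mul_le_mul_of_nonneg_left _ h0.le
          rw [hM]
          nlinarith only [hm1]
        calc ε * (n : ℝ) ^ 2 ≤ ε * (9 * (16 * (m : ℝ) ^ 2 * D)) := by
              apply mul_le_mul_of_nonneg_left _ h0.le
              linarith only [hnn, h4]
          _ = (ε * (144 * (m : ℝ) ^ 2)) * D := by ring
          _ ≤ 1 * D := mul_le_mul_of_nonneg_right h5 hD0
          _ = D := one_mul _
      · have h3 : (w : ℝ) * (E : ℝ) ≤ ((w : ℝ) + 10 * n1) * (D : ℝ) := by exact_mod_cast h2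
        have h4 : (w : ℝ) * (E : ℝ) ≤ (w : ℝ) * (M * D) := by
          refine h3.trans ?_
          have h5 : (w : ℝ) + 10 * n1 ≤ w * M := by
            rw [hM]
            linarith only [hmw2']
          calc ((w : ℝ) + 10 * n1) * (D : ℝ) ≤ (w * M) * D := mul_le_mul_of_nonneg_right h5 hD0
            _ = _ := by ring
        have h5 : (E : ℝ) ≤ M * D := le_of_mul_le_mul_left h4 hw1'
        have h6 : M * (9 * ε * (n1 : ℝ) ^ 2) ≤ M * D := by
          refine le_trans (le_of_eq ?_) (hA1.trans h5)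
          rw [hε1]; ring
        have h7 : 9 * ε * (n1 : ℝ) ^ 2 ≤ D :=
          le_of_mul_le_mul_left h6 (by linarith only [hM21])
        calc ε * (n : ℝ) ^ 2 ≤ ε * (9 * (n1 : ℝ) ^ 2) := mul_le_mul_of_nonneg_left hnn h0.le
          _ = 9 * ε * (n1 : ℝ) ^ 2 := by ring
          _ ≤ D := h7
    · have hKle : (2 : ℝ) ^ (-(1 / (408 * √(M * ε)))) ≤ 2 ^ (-(1 / (136 * √(K * ε)))) := by
        apply Real.rpow_le_rpow_of_exponent_le (by norm_num)
        apply neg_le_neg
        have hMε : 0 < √(M * ε) := Real.sqrt_pos.2 (by positivity)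
        apply one_div_le_one_div_of_le (by positivity)
        have e1 : √(9 * (M * ε)) ≤ √(K * ε) := by
          apply Real.sqrt_le_sqrt
          have := mul_le_mul_of_nonneg_right hKM h0.le
          linarith only [this]
        have e2 : √(9 * (M * ε)) = 3 * √(M * ε) := by
          have e : (9 : ℝ) = 3 ^ 2 := by norm_num
          rw [e, Real.sqrt_mul (by norm_num : (0 : ℝ) ≤ 3 ^ 2), Real.sqrt_sq (by norm_num)]
        linarith only [e1, e2]
      refine le_trans ?_ (mul_le_mul_of_nonneg_right hKle (by positivity))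
      have h2 := numCopies_host_le (n := n) hm w A P
      have h3 : (numCopies (dsum P) (host (n := n) hm w A P) : ℝ) ≤
          (numCopies H5 A : ℝ) * ((n : ℝ) ^ m * (n : ℝ) ^ m) := by exact_mod_cast h2
      have h4 : 408 * √(M * ε) = 136 * √ε1 := by
        have e : ε1 = 3 ^ 2 * (M * ε) := by rw [hε1]; ring
        have e3 : √ε1 = 3 * √(M * ε) := by
          rw [e, Real.sqrt_mul (by norm_num : (0 : ℝ) ≤ 3 ^ 2), Real.sqrt_sq (by norm_num)]
        rw [e3]
        ring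
      rw [h4]
      have hn1n : (n1 : ℝ) ≤ (n : ℝ) := by
        have : n1 ≤ n := by omega
        exact_mod_cast this
      calc (numCopies (dsum P) (host (n := n) hm w A P) : ℝ)
          ≤ (numCopies H5 A : ℝ) * ((n : ℝ) ^ m * (n : ℝ) ^ m) := h3
        _ ≤ (2 ^ (-(1 / (136 * √ε1))) * (n1 : ℝ) ^ 10) * ((n : ℝ) ^ m * (n : ℝ) ^ m) :=
            mul_le_mul_of_nonneg_right hA2 (by positivity)
        _ ≤ (2 ^ (-(1 / (136 * √ε1))) * (n : ℝ) ^ 10) * ((n : ℝ) ^ m * (n : ℝ) ^ m) := by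
            apply mul_le_mul_of_nonneg_right _ (by positivity)
            apply mul_le_mul_of_nonneg_left _ (by positivity)
            exact pow_le_pow_left₀ (by positivity) hn1n 10
        _ = 2 ^ (-(1 / (136 * √ε1))) * (n : ℝ) ^ (2 * (5 + m)) := by
            have e : 2 * (5 + m) = 10 + (m + m) := by ring
            rw [e, pow_add, pow_add, mul_assoc]

/-- an exponentially small count refutes the polynomial removal property -/
theorem not_poly_of_quant {k : ℕ} (H : Matrix (Fin k) (Fin k) Bool) {a ε₀ : ℝ} (ha : 0 < a)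
    (hε₀ : 0 < ε₀) (h : ∀ ε : ℝ, 0 < ε → ε ≤ ε₀ → ∀ n : ℕ, (2 : ℝ) ^ (1 / √ε) ≤ (n : ℝ) →
      ∃ A : Matrix (Fin n) (Fin n) Bool, ε ≤ distFree H A ∧
        (numCopies H A : ℝ) ≤ 2 ^ (-(a / √ε)) * (n : ℝ) ^ (2 * k)) :
    ¬ PolynomialRemoval H := by
  rintro ⟨c, C, hc, hC, hp⟩
  have hlim := tendsto_rpow_mul_exp_neg_mul_atTop_nhds_zero (2 * C) (Real.log 2 * a)
    (mul_pos (Real.log_pos (by norm_num)) ha)
  have hlim2 : Tendsto (fun x : ℝ => (x ^ 2)⁻¹) atTop (𝓝 0) :=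
    (tendsto_pow_atTop (by norm_num)).inv_tendsto_atTop
  have hev := ((hlim.eventually (gt_mem_nhds hc)).and
    (eventually_gt_atTop (1 : ℝ))).and (hlim2.eventually (gt_mem_nhds hε₀))
  obtain ⟨x, ⟨hx1, hx2⟩, hx3⟩ := hev.exists
  have hx0 : 0 < x := by linarith only [hx2]
  have hsq : √((x ^ 2)⁻¹) = x⁻¹ := by
    rw [Real.sqrt_inv, Real.sqrt_sq hx0.le]
  obtain ⟨n, hn⟩ := exists_nat_ge ((2 : ℝ) ^ x)
  obtain ⟨A, hA1, hA2⟩ := h (x ^ 2)⁻¹ (by positivity) hx3.le n (by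
    rw [hsq, one_div, inv_inv]
    exact hn)
  have hnpos : (0 : ℝ) < (n : ℝ) := lt_of_lt_of_le (by positivity) hn
  have hn1 : 1 ≤ n := by
    have : 0 < n := by exact_mod_cast hnpos
    exact this
  have hlt : (x ^ 2)⁻¹ < 1 := by
    apply inv_lt_one_of_one_lt₀
    nlinarith only [hx2]
  have h1 := hp n (x ^ 2)⁻¹ A hn1 (by positivity) hlt hA1
  have h2 := h1.trans hA2
  have h3 : c * ((x ^ 2)⁻¹) ^ C ≤ 2 ^ (-(a / √((x ^ 2)⁻¹))) :=
    le_of_mul_le_mul_right h2 (by positivity)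
  rw [hsq, div_inv_eq_mul] at h3
  have h4 : ((x ^ 2)⁻¹) ^ C = (x ^ (2 * C))⁻¹ := by
    rw [Real.inv_rpow (by positivity), ← Real.rpow_natCast, ← Real.rpow_mul hx0.le]
    norm_num
  have h5 : (2 : ℝ) ^ (-(a * x)) = Real.exp (-(Real.log 2 * a) * x) := by
    rw [Real.rpow_def_of_pos (by norm_num)]
    congr 1
    ring
  rw [h4, h5, ← div_eq_mul_inv, div_le_iff₀ (by positivity)] at h3
  have h6 : x ^ (2 * C) * Real.exp (-(Real.log 2 * a) * x) < c := hx1
  linarith only [h3, h6, mul_comm (x ^ (2 * C)) (Real.exp (-(Real.log 2 * a) * x))]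

theorem not_poly {m : ℕ} (P : Matrix (Fin m) (Fin m) Bool) : ¬ PolynomialRemoval (dsum P) := by
  have hM : (0 : ℝ) < 1 + 188 * (m : ℝ) := by positivity
  refine not_poly_of_quant (dsum P) (a := 1 / (136 * √(1 + 188 * (m : ℝ))))
    (ε₀ := 1 / (100000 * (1 + 188 * (m : ℝ)) ^ 2)) (by positivity) (by positivity) ?_
  intro ε h0 h1 n hn
  obtain ⟨A, hA1, hA2⟩ := quant P h0 h1 hn
  refine ⟨A, hA1, ?_⟩
  have e : 1 / (136 * √(1 + 188 * (m : ℝ))) / √ε = 1 / (136 * √((1 + 188 * (m : ℝ)) * ε)) := by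
    rw [Real.sqrt_mul hM.le, div_div, mul_assoc]
  rw [e]
  exact hA2

theorem card_ge {k : ℕ} (hk : 5 ≤ k) :
    2 ^ ((k - 5) ^ 2) ≤ Nat.card {H : Matrix (Fin k) (Fin k) Bool // ¬ PolynomialRemoval H} := by
  obtain ⟨m, rfl⟩ := Nat.exists_eq_add_of_le hk
  have h1 : Nat.card (Matrix (Fin m) (Fin m) Bool) = 2 ^ ((5 + m - 5) ^ 2) := by
    have e : 5 + m - 5 = m := by omega
    rw [e, sq]
    change Nat.card (Fin m → Fin m → Bool) = _
    rw [Nat.card_fun, Nat.card_fun, ← pow_mul, Nat.card_eq_fintype_card (α := Fin m),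
      Nat.card_eq_fintype_card (α := Bool), Fintype.card_fin, Fintype.card_bool]
  rw [← h1]
  apply Nat.card_le_card_of_injective (fun P => ⟨dsum P, not_poly P⟩)
  intro P Q h
  exact dsum_injective (congrArg Subtype.val h)

end Vale.Agent.P037.Blk
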